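import Vale.Agent.P098.Bdl.B27

/-! # Half-plane functions are global minimizers (helper510)

For a unit vector `e` and `c : ℝ` the function `x ↦ (⟪x, e⟫ - c)₊` is a global minimizer of the
one-phase Bernoulli energy, in every dimension.  Calibration: for a competitor `v ≥ 0` with weak
gradient `g` one has `‖g‖² + 1_{v > 0} ≥ 2 ⟪g, e⟫` almost everywhere (`g = 0` almost everywhere on
`{v = 0}`), with equality for the half-plane function, and `∫ ⟪g, e⟫` depends only on the boundary
values. -/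

open MeasureTheory Set Metric Filter
open scoped ContDiff RealInnerProductSpace Topology NNReal

namespace Vale.Agent.P098.H510

open Vale.Agent.P098

variable {d : ℕ}

lemma ball_fin (x₀ : E d) (r : ℝ) : IsFiniteMeasure (volume.restrict (ball x₀ r)) :=
  ⟨by simpa only [MeasurableSet.univ, Measure.restrict_apply, univ_inter] using
    measure_ball_lt_top⟩

/-- Affine functions are in `H¹` of every ball. -/
lemma aff_memH1 (e : E d) (c : ℝ) (x₀ : E d) (r : ℝ) :
    MemH1 (ball x₀ r) (fun x => ⟪x, e⟫ - c) (fun _ => e) := by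
  have hL : LipschitzWith ‖e‖₊ (fun x : E d => ⟪x, e⟫ - c) := by
    refine LipschitzWith.of_dist_le_mul fun x y => ?_
    rw [Real.dist_eq, dist_eq_norm]
    have h : ⟪x, e⟫ - c - (⟪y, e⟫ - c) = ⟪x - y, e⟫ := by rw [inner_sub_left]; ring
    rw [h, mul_comm]
    exact abs_real_inner_le_norm _ _
  have hg : gradient (fun x : E d => ⟪x, e⟫ - c) = fun _ => e := by
    funext x
    have h : HasGradientAt (fun x : E d => ⟪x, e⟫ - c) e x := by
      rw [hasGradientAt_iff_hasFDerivAt]
      have h1 : HasFDerivAt (fun x : E d => ⟪e, x⟫ - c) (InnerProductSpace.toDual ℝ (E d) e) x :=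
        ((InnerProductSpace.toDual ℝ (E d) e).hasFDerivAt (x := x)).sub_const c
      have h2 : (fun x : E d => ⟪x, e⟫ - c) = fun x : E d => ⟪e, x⟫ - c := by
        funext y; rw [real_inner_comm]
      rw [h2]
      exact h1
    exact h.gradient
  have h := ModA.memH1_of_lipschitz hL x₀ r
  rwa [hg] at h

/-- The weak gradient of a nonnegative `H¹` function vanishes almost everywhere on its zero set. -/
lemma grad_zero {x₀ : E d} {r : ℝ} {v : E d → ℝ} {g : E d → E d} (hv0 : ∀ x, 0 ≤ v x)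
    (h : MemH1 (ball x₀ r) v g) :
    ∀ᵐ x ∂(volume.restrict (ball x₀ r)), v x = 0 → g x = 0 := by
  have h1 := MemH1.posPart h
  have h2 : (fun x => max (v x) 0) = v := by funext x; exact max_eq_left (hv0 x)
  rw [h2] at h1
  filter_upwards [ModA.weakGrad_unique h h1] with x hx h0
  rw [hx, indicator_of_notMem]
  simp [h0]

/-- The mean of the weak gradient of an `H¹₀` function is zero. -/
lemma integral_inner_eq_zero {x₀ : E d} {r : ℝ} {w : E d → ℝ} {h : E d → E d}
    (hw : MemH10 (ball x₀ r) w h) (e : E d) : ∫ x in ball x₀ r, ⟪h x, e⟫ = 0 := by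
  have hfin := ball_fin x₀ r
  obtain ⟨hH, happ⟩ := hw
  have ih : Integrable (fun x => ⟪h x, e⟫) (volume.restrict (ball x₀ r)) :=
    (hH.2.1.integrable (by norm_num)).inner_const e
  set V : ℝ := (volume.restrict (ball x₀ r)).real univ with hV
  have hV0 : 0 ≤ V := measureReal_nonneg
  have key : ∀ ε : ℝ, 0 < ε → |∫ x in ball x₀ r, ⟪h x, e⟫| ≤ ε * (V + ‖e‖ ^ 2) := by
    intro ε hε
    obtain ⟨φ, hφ, hφc, hφs, hle⟩ := happ (ε ^ 2) (by positivity)
    have hφg : MemLp (gradient φ) 2 (volume.restrict (ball x₀ r)) := by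
      obtain ⟨K, hK⟩ := hφ.lipschitzWith_of_hasCompactSupport hφc (by simp)
      exact ModA.memLp_gradient hK x₀ r
    have ig : Integrable (fun x => ⟪gradient φ x, e⟫) (volume.restrict (ball x₀ r)) :=
      (hφg.integrable (by norm_num)).inner_const e
    have hφ0 : ∫ x in ball x₀ r, ⟪gradient φ x, e⟫ = 0 := by
      have h1 := (aff_memH1 (0 : E d) (-1) x₀ r).2.2 φ hφ hφc hφs e
      simp only [inner_zero_right, inner_zero_left, zero_mul, integral_zero, neg_zero, zero_sub,
        neg_neg, one_mul] at h1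
      rw [← h1]
      congr 1
      funext x
      rw [gradient, InnerProductSpace.toDual_symm_apply]
    have e1 : ∫ x in ball x₀ r, ⟪h x, e⟫ = ∫ x in ball x₀ r, ⟪h x - gradient φ x, e⟫ := by
      simp only [inner_sub_left]
      rw [integral_sub ih ig, hφ0, sub_zero]
    have id2 : Integrable (fun x => ‖h x - gradient φ x‖ ^ 2) (volume.restrict (ball x₀ r)) :=
      (hH.2.1.sub hφg).norm.integrable_sq
    have hsq : ∫ x in ball x₀ r, ‖h x - gradient φ x‖ ^ 2 ≤ ε ^ 2 := by
      have h0 : 0 ≤ ∫ x in ball x₀ r, (w x - φ x) ^ 2 := integral_nonneg fun x => sq_nonneg _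
      linarith only [h0, hle]
    have hbd : ∀ x, |⟪h x - gradient φ x, e⟫| ≤
        ε⁻¹ / 2 * ‖h x - gradient φ x‖ ^ 2 * (2 * ‖e‖ ^ 2) + ε := by
      intro x
      have h1 := abs_real_inner_le_norm (h x - gradient φ x) e
      have h2 : 0 ≤ (ε⁻¹ * ‖h x - gradient φ x‖ * ‖e‖ - 1 / 2) ^ 2 := sq_nonneg _
      have h3 : ε * (ε⁻¹ * ‖h x - gradient φ x‖ * ‖e‖ - 1 / 2) ^ 2 =
          ε⁻¹ / 2 * ‖h x - gradient φ x‖ ^ 2 * (2 * ‖e‖ ^ 2) + ε / 4
            - ‖h x - gradient φ x‖ * ‖e‖ := by
        field_simp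
        ring
      have h4 : 0 ≤ ε * (ε⁻¹ * ‖h x - gradient φ x‖ * ‖e‖ - 1 / 2) ^ 2 := by positivity
      linarith only [h1, h3, h4, hε]
    have i3 : Integrable (fun x => ε⁻¹ / 2 * ‖h x - gradient φ x‖ ^ 2 * (2 * ‖e‖ ^ 2) + ε)
        (volume.restrict (ball x₀ r)) := ((id2.const_mul _).mul_const _).add (integrable_const _)
    calc |∫ x in ball x₀ r, ⟪h x, e⟫| = |∫ x in ball x₀ r, ⟪h x - gradient φ x, e⟫| := by rw [e1]
      _ ≤ ∫ x in ball x₀ r, |⟪h x - gradient φ x, e⟫| := abs_integral_le_integral_abs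
      _ ≤ ∫ x in ball x₀ r, (ε⁻¹ / 2 * ‖h x - gradient φ x‖ ^ 2 * (2 * ‖e‖ ^ 2) + ε) := by
          refine integral_mono_of_nonneg (Eventually.of_forall fun x => abs_nonneg _) i3
            (Eventually.of_forall hbd)
      _ = ε⁻¹ / 2 * (∫ x in ball x₀ r, ‖h x - gradient φ x‖ ^ 2) * (2 * ‖e‖ ^ 2) + V * ε := by
          rw [integral_add ((id2.const_mul _).mul_const _) (integrable_const _),
            integral_mul_const, integral_const_mul, integral_const, smul_eq_mul]
      _ ≤ ε⁻¹ / 2 * ε ^ 2 * (2 * ‖e‖ ^ 2) + V * ε := by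
          gcongr
      _ = ε * (V + ‖e‖ ^ 2) := by
          field_simp
          ring
  by_contra hne
  have hpos : 0 < |∫ x in ball x₀ r, ⟪h x, e⟫| := abs_pos.2 hne
  set A := |∫ x in ball x₀ r, ⟪h x, e⟫| with hA
  have h1 := key (A / (2 * (V + ‖e‖ ^ 2 + 1))) (by positivity)
  have h2 : A / (2 * (V + ‖e‖ ^ 2 + 1)) * (V + ‖e‖ ^ 2) ≤ A / 2 := by
    rw [div_mul_eq_mul_div, div_le_div_iff₀ (by positivity) (by positivity)]
    nlinarith only [hpos, hV0, sq_nonneg ‖e‖]
  linarith only [h1, h2, hpos]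

/-- **Half-plane functions are global minimizers** of the one-phase Bernoulli energy. -/
theorem halfPlane_isGlobalMinimizer {e : E d} (he : ‖e‖ = 1) (c : ℝ) :
    IsGlobalMinimizer (fun x : E d => max (⟪x, e⟫ - c) 0) := by
  refine ⟨fun x => le_max_right _ _,
    fun x => ({y : E d | 0 < ⟪y, e⟫ - c}).indicator (fun _ => e) x, fun x₀ r _ => ?_⟩
  have hfin := ball_fin x₀ r
  have hu : MemH1 (ball x₀ r) (fun x : E d => max (⟪x, e⟫ - c) 0)
      (fun x => ({y : E d | 0 < ⟪y, e⟫ - c}).indicator (fun _ => e) x) :=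
    MemH1.posPart (aff_memH1 e c x₀ r)
  refine ⟨hu, fun v gv hv0 hv hd => ?_⟩
  have hz := grad_zero hv0 hv
  have h1 := integral_inner_eq_zero hd e
  set g : E d → E d := fun x => ({y : E d | 0 < ⟪y, e⟫ - c}).indicator (fun _ => e) x with hg
  have ig : Integrable (fun x => ⟪g x, e⟫) (volume.restrict (ball x₀ r)) :=
    (hu.2.1.integrable (by norm_num)).inner_const e
  have igv : Integrable (fun x => ⟪gv x, e⟫) (volume.restrict (ball x₀ r)) :=
    (hv.2.1.integrable (by norm_num)).inner_const e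
  have h2 : ∫ x in ball x₀ r, ⟪gv x, e⟫ = ∫ x in ball x₀ r, ⟪g x, e⟫ := by
    have h3 : ∫ x in ball x₀ r, (⟪gv x, e⟫ - ⟪g x, e⟫) = 0 := by
      rw [← h1]
      congr 1
      funext x
      rw [← inner_sub_left]
    rw [integral_sub igv ig] at h3
    linarith only [h3]
  have eu : energy (ball x₀ r) (fun x : E d => max (⟪x, e⟫ - c) 0) g =
      2 * ∫ x in ball x₀ r, ⟪g x, e⟫ := by
    unfold energy
    rw [← integral_const_mul]
    congr 1
    funext x
    by_cases hx : 0 < ⟪x, e⟫ - c
    · have m1 : x ∈ {y : E d | 0 < ⟪y, e⟫ - c} := hx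
      have m2 : x ∈ {y : E d | 0 < max (⟪y, e⟫ - c) 0} := lt_max_of_lt_left hx
      simp only [hg, indicator_of_mem m1, indicator_of_mem m2, he, real_inner_self_eq_norm_sq]
      norm_num
    · have m1 : x ∉ {y : E d | 0 < ⟪y, e⟫ - c} := hx
      have m2 : x ∉ {y : E d | 0 < max (⟪y, e⟫ - c) 0} := by
        simp only [mem_ofPred_eq, not_lt, max_le_iff, le_refl, and_true]
        exact not_lt.1 hx
      simp only [hg, indicator_of_notMem m1, indicator_of_notMem m2, inner_zero_left, norm_zero]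
      norm_num
  have iv : Integrable (fun x => ‖gv x‖ ^ 2 + {y | 0 < v y}.indicator (fun _ => (1 : ℝ)) x)
      (volume.restrict (ball x₀ r)) := (rS4_sq hv.2.1).add (rS4_ind hv.1)
  have ev : 2 * ∫ x in ball x₀ r, ⟪gv x, e⟫ ≤ energy (ball x₀ r) v gv := by
    unfold energy
    rw [← integral_const_mul]
    refine integral_mono_ae (igv.const_mul 2) iv ?_
    filter_upwards [hz] with x hx
    rcases (hv0 x).eq_or_lt with h0 | h0
    · have m : x ∉ {y | 0 < v y} := by
        simp only [mem_ofPred_eq, not_lt]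
        exact h0.symm.le
      rw [hx h0.symm, indicator_of_notMem m]
      simp
    · have m : x ∈ {y | 0 < v y} := h0
      rw [indicator_of_mem m]
      have h4 := real_inner_le_norm (gv x) e
      rw [he, mul_one] at h4
      nlinarith only [h4, sq_nonneg (‖gv x‖ - 1)]
  rw [eu, ← h2]
  exact ev

/-- The zero function is a global minimizer. -/
theorem zero_isGlobalMinimizer : IsGlobalMinimizer (fun _ : E d => (0 : ℝ)) := by
  refine ⟨fun _ => le_rfl, fun _ => 0, fun x₀ r _ => ⟨?_, fun v gv _ _ _ => ?_⟩⟩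
  · have h := aff_memH1 (0 : E d) 0 x₀ r
    simpa only [inner_zero_right, sub_zero] using h
  · have h1 : energy (ball x₀ r) (fun _ : E d => (0 : ℝ)) (fun _ => 0) = 0 := by
      unfold energy
      simp
    rw [h1]
    unfold energy
    refine integral_nonneg fun x => add_nonneg (sq_nonneg _) (indicator_nonneg (fun _ _ => ?_) _)
    exact zero_le_one

end Vale.Agent.P098.H510
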