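import Vale.Agent.P098.Bdl.B27
import Vale.Agent.P098.Bdl.B21

/-! # Global minimizers have a Lipschitz representative with a zero (helper510)

No homogeneity is assumed. -/

open MeasureTheory Set Metric Filter
open scoped ContDiff RealInnerProductSpace Topology NNReal

namespace Vale.Agent.P098.H510

open Vale.Agent.P098

variable {d : ℕ}

theorem lipschitz_of_av_z (hd : 1 ≤ d) {v : E d → ℝ} (hc : Continuous v) (h0 : ∀ x, 0 ≤ v x)
    (hh : Harm (pos v) v) {C : ℝ} (hav : ∀ (x : E d) (r : ℝ), 0 < r → |av v r x - v x| ≤ C * r)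
    {z₀ : E d} (hz : v z₀ = 0) : ∃ K : ℝ≥0, LipschitzWith K v := by
  have _ := hd
  obtain ⟨C₁, hC₁, hb⟩ := harm_deriv_bound d 1
  have hC : 0 ≤ C := by
    have := (abs_nonneg _).trans (hav 0 1 one_pos)
    linarith only [this]
  set Z : Set (E d) := {x | v x = 0} with hZ
  have hZc : IsClosed Z := isClosed_eq hc continuous_const
  have hZn : Z.Nonempty := ⟨z₀, hz⟩
  set A : ℝ := 16 ^ d * (4 * C) with hA
  have hA0 : 0 ≤ A := by (clear * - hC; positivity)
  -- the main estimate
  have main : ∀ x, 0 < v x → 0 < infDist x Z ∧ ball x (infDist x Z) ⊆ pos v ∧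
      ∀ w ∈ ball x (infDist x Z / 2), v w ≤ A * infDist x Z := by
    intro x hx
    have hxZ : x ∉ Z := fun h => hx.ne' h
    have hρ : 0 < infDist x Z := (hZc.notMem_iff_infDist_pos hZn).1 hxZ
    have hsub : ball x (infDist x Z) ⊆ pos v := by
      intro y hy
      refine lt_of_le_of_ne (h0 y) fun h => ?_
      have h1 : infDist x Z ≤ dist x y := infDist_le_dist_of_mem h.symm
      rw [mem_ball, dist_comm] at hy
      linarith only [hy, h1]
    refine ⟨hρ, hsub, fun w hw => ?_⟩
    obtain ⟨z, hzZ, hzd⟩ := hZc.exists_infDist_eq_dist hZn x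
    set ρ := infDist x Z with hρd
    have hw' : dist w x < ρ / 2 := hw
    have hharm : Harm (ball w (ρ / 2)) v := by
      have hs : ball w (ρ / 2) ⊆ pos v := (ball_subset_ball' (by linarith only [hw'])).trans hsub
      exact ⟨hh.1.mono hs, fun y hy => hh.2 y (hs hy)⟩
    have h1 : av v (ρ / 4) w = v w := hharm.av_eq (by (clear * - hρ; positivity)) (by linarith only [hρ])
    have h2 := rS6_av_le hc h0 (w := w) (z := z) (s := ρ / 4) (t := 4 * ρ) (by (clear * - hρ; positivity))
      (by (clear * - hρ; positivity)) (by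
        have := dist_triangle w x z
        linarith only [hρ, hzd, hw', this])
    have h3 : (4 * ρ) / (ρ / 4) = 16 := by
      field_simp
      norm_num
    rw [h1, h3] at h2
    have h4 := hav z (4 * ρ) (by (clear * - hρ; positivity))
    have h5 : v z = 0 := hzZ
    rw [h5, sub_zero] at h4
    have h6 := (le_abs_self _).trans h4
    calc v w ≤ 16 ^ d * av v (4 * ρ) z := h2
      _ ≤ 16 ^ d * (C * (4 * ρ)) := mul_le_mul_of_nonneg_left h6 (by positivity)
      _ = A * ρ := by rw [hA]; ring
  have hder : ∀ x, 0 < v x → DifferentiableAt ℝ v x ∧ ‖fderiv ℝ v x‖ ≤ C₁ * (2 * A) := by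
    intro x hx
    obtain ⟨hρ, hsub, hM⟩ := main x hx
    have hopen : IsOpen (pos v) := isOpen_lt continuous_const hc
    refine ⟨(hh.1.contDiffAt (hopen.mem_nhds hx)).differentiableAt (by simp), ?_⟩
    have hharm : Harm (ball x (infDist x Z / 2)) v := by
      have hs : ball x (infDist x Z / 2) ⊆ pos v := (ball_subset_ball (by linarith only [hρ])).trans hsub
      exact ⟨hh.1.mono hs, fun y hy => hh.2 y (hs hy)⟩
    have h1 := hb v x (infDist x Z / 2) (A * infDist x Z) (by (clear * - hρ; positivity)) hharm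
      (fun y hy => by rw [abs_of_nonneg (h0 y)]; exact hM y hy) x
      (mem_ball_self (by (clear * - hρ; positivity)))
    rw [norm_iteratedFDeriv_one, pow_one] at h1
    refine h1.trans (le_of_eq ?_)
    (clear * - hρ hC₁; field_simp)
  refine ⟨⟨max (C₁ * (2 * A)) A, le_max_of_le_right hA0⟩, LipschitzWith.of_dist_le_mul
    fun x y => ?_⟩
  change dist (v x) (v y) ≤ max (C₁ * (2 * A)) A * dist x y
  by_cases hseg : segment ℝ x y ⊆ pos v
  · have h1 := Convex.norm_image_sub_le_of_norm_fderiv_le (𝕜 := ℝ) (f := v) (s := segment ℝ x y)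
      (C := C₁ * (2 * A)) (fun p hp => (hder p (hseg hp)).1) (fun p hp => (hder p (hseg hp)).2)
      (convex_segment x y) (left_mem_segment ℝ x y) (right_mem_segment ℝ x y)
    rw [dist_comm, dist_comm x y, dist_eq_norm, dist_eq_norm]
    exact h1.trans (mul_le_mul_of_nonneg_right (le_max_left _ _) (norm_nonneg _))
  · rw [not_subset] at hseg
    obtain ⟨p, hp, hpv⟩ := hseg
    have hp0 : p ∈ Z := le_antisymm (not_lt.1 hpv) (h0 p)
    have hdist := dist_add_dist_of_mem_segment hp
    have hbd : ∀ q, dist q p ≤ dist x y → v q ≤ max (C₁ * (2 * A)) A * dist x y := by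
      intro q hq
      rcases (h0 q).eq_or_lt with h | h
      · rw [← h]
        have h1 : 0 ≤ max (C₁ * (2 * A)) A := le_max_of_le_right hA0
        exact mul_nonneg h1 dist_nonneg
      · obtain ⟨hρ, _, hM⟩ := main q h
        have h1 := hM q (mem_ball_self (by positivity))
        have h2 : infDist q Z ≤ dist q p := infDist_le_dist_of_mem hp0
        exact h1.trans (mul_le_mul (le_max_right _ _) (h2.trans hq) hρ.le
          (le_max_of_le_right hA0))
    have hx := hbd x (by linarith only [dist_nonneg (x := p) (y := y), hdist])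
    have hy := hbd y (by rw [dist_comm y p]; linarith only [hdist, dist_nonneg (x := x) (y := p)])
    rw [Real.dist_eq, abs_le]
    constructor
    · linarith only [hy, h0 x]
    · linarith only [hx, h0 y]

/-- A continuous nonnegative harmonic function on the whole space is constant. -/
theorem const_of_harm {v : E d → ℝ} (hc : Continuous v) (h0 : ∀ x, 0 ≤ v x)
    (hh : Harm univ v) (x : E d) : v x = v 0 := by
  obtain ⟨C₁, hC₁, hb⟩ := harm_deriv_bound d 1
  have hball : ∀ (y : E d) (R : ℝ), Harm (ball y R) v := fun y R =>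
    ⟨hh.1.mono (subset_univ _), fun z _ => hh.2 z (mem_univ _)⟩
  -- upper bound
  have hup : ∀ w : E d, v w ≤ 4 ^ d * v 0 := by
    intro w
    have hs : 0 < ‖w‖ + 1 := by positivity
    have h1 : av v (‖w‖ + 1) w = v w := (hball w (‖w‖ + 2)).av_eq hs.le (by linarith only [hs])
    have h2 : av v (4 * (‖w‖ + 1)) 0 = v 0 :=
      (hball 0 (4 * (‖w‖ + 1) + 1)).av_eq (by positivity) (by linarith only [hs])
    have h3 := rS6_av_le hc h0 (w := w) (z := 0) (s := ‖w‖ + 1) (t := 4 * (‖w‖ + 1)) hs
      (by positivity) (by rw [dist_zero_right]; linarith only [hs])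
    rw [h1, h2] at h3
    have h4 : 4 * (‖w‖ + 1) / (‖w‖ + 1) = 4 := by field_simp
    rwa [h4] at h3
  have hder : ∀ y : E d, fderiv ℝ v y = 0 := by
    intro y
    have hle : ∀ R : ℝ, 0 < R → ‖fderiv ℝ v y‖ ≤ C₁ * (4 ^ d * v 0) / R := by
      intro R hR
      have h1 := hb v y R (4 ^ d * v 0) hR (hball y R)
        (fun z _ => by rw [abs_of_nonneg (h0 z)]; exact hup z) y (mem_ball_self (by positivity))
      rwa [norm_iteratedFDeriv_one, pow_one] at h1
    have hz : ‖fderiv ℝ v y‖ ≤ 0 := by
      by_contra hne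
      push Not at hne
      set a := ‖fderiv ℝ v y‖ with ha
      have hM : 0 ≤ C₁ * (4 ^ d * v 0) := by
        have := h0 0
        positivity
      have h1 := hle ((C₁ * (4 ^ d * v 0) + 1) / a) (by positivity)
      rw [div_div_eq_mul_div, le_div_iff₀ (by positivity)] at h1
      nlinarith only [h1, hne]
    exact norm_le_zero_iff.1 hz
  have hd : Differentiable ℝ v := fun y =>
    ((hh.1.contDiffAt (univ_mem)).differentiableAt (by simp))
  exact is_const_of_fderiv_eq_zero hd hder x 0

/-- Every global minimizer has a Lipschitz representative, which has a zero. -/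
theorem exists_lip_rep (hd : 1 ≤ d) {u : E d → ℝ} (hu : IsGlobalMinimizer u) :
    ∃ (v : E d → ℝ) (K : ℝ≥0), LipschitzWith K v ∧ u =ᵐ[volume] v ∧
      IsGlobalMinimizer v ∧ (∀ x, 0 ≤ v x) ∧ ∃ z, v z = 0 := by
  obtain ⟨C, hC0, hC⟩ := exists_harm_approx hd hu
  have hloc : LocallyIntegrable u := by
    intro x
    obtain ⟨h0, g, hg⟩ := hu
    have h1 := (hg x 1 one_pos).1.1
    have hfin : IsFiniteMeasure (volume.restrict (ball x 1)) :=
      ⟨by simpa only [MeasurableSet.univ, Measure.restrict_apply, univ_inter] using measure_ball_lt_top⟩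
    exact ⟨ball x 1, ball_mem_nhds x one_pos, h1.integrable (by norm_num)⟩
  obtain ⟨C', v, hvc, huv, hav⟩ := exists_cont_rep hd hloc hC
  have hv0 : ∀ x, 0 ≤ v x := by
    have hcl : IsClosed {x | 0 ≤ v x} := isClosed_le continuous_const hvc
    have hae : ∀ᵐ x, x ∈ {x | 0 ≤ v x} := by
      filter_upwards [huv] with x hx
      show 0 ≤ v x
      rw [← hx]
      exact hu.1 x
    have hdense : Dense {x | 0 ≤ v x} := Measure.dense_of_ae hae
    intro x
    have := hcl.closure_eq ▸ hdense.closure_eq
    have hx : x ∈ (univ : Set (E d)) := mem_univ x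
    rw [← this] at hx
    exact hx
  have hvm : IsGlobalMinimizer v := rS7_min_congr huv hv0 hu
  have hharm := rS7_harm hvc hvm
  by_cases hz : ∃ z, v z = 0
  · obtain ⟨z, hz⟩ := hz
    obtain ⟨K, hK⟩ := lipschitz_of_av_z hd hvc hv0 hharm hav hz
    exact ⟨v, K, hK, huv, hvm, hv0, z, hz⟩
  · exfalso
    push Not at hz
    have hpos : pos v = univ := eq_univ_of_forall fun x => lt_of_le_of_ne (hv0 x) (hz x).symm
    rw [hpos] at hharm
    have hconst := const_of_harm hvc hv0 hharm
    have hlip : LipschitzWith 0 v := by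
      refine LipschitzWith.of_dist_le_mul fun x y => ?_
      rw [hconst x, hconst y, dist_self]
      simp
    have hm : MinL 0 v := ⟨hlip, hv0, lipMin_of_isGlobalMinimizer hlip hvm⟩
    obtain ⟨c, hc, hnd⟩ := nondeg d hd
    have h0 : 0 < v 0 := lt_of_le_of_ne (hv0 0) (hz 0).symm
    obtain ⟨y, -, hy⟩ := hnd 0 v hm 0 h0 (2 * v 0 / c) (by positivity)
    rw [hconst y] at hy
    have h1 : c * (2 * v 0 / c) = 2 * v 0 := by field_simp
    linarith only [hy, h1, h0]

end Vale.Agent.P098.H510
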